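import Vale.Agent.P150.Defs

/-!
# P150: moments of a Rademacher chaos of degree two
-/

open Finset

namespace Vale.Agent.P150.H954C

/-- the two-point inequality -/
theorem two_point (a b c : ℝ) (p : ℕ) (hc : 4 * (p : ℝ) ≤ c) (hc1 : 1 ≤ c) :
    (a + b) ^ (2 * p) + (a - b) ^ (2 * p) ≤ 2 * (a ^ 2 + c * b ^ 2) ^ p := by
  set X : ℝ := a ^ 2 + c * b ^ 2 with hX
  have ha2 : a ^ 2 ≤ X := by
    rw [hX]
    have : 0 ≤ c * b ^ 2 := by positivity
    linarith
  have hb2 : b ^ 2 ≤ X := by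
    rw [hX]
    nlinarith [sq_nonneg a, sq_nonneg b]
  have hX0 : 0 ≤ X := (sq_nonneg a).trans ha2
  rcases hX0.eq_or_lt with h0 | hpos
  · have ha : a = 0 := by
      have : a ^ 2 = 0 := le_antisymm (by rw [h0]; exact ha2) (sq_nonneg a)
      exact pow_eq_zero_iff (by norm_num) |>.1 this
    have hb : b = 0 := by
      have : b ^ 2 = 0 := le_antisymm (by rw [h0]; exact hb2) (sq_nonneg b)
      exact pow_eq_zero_iff (by norm_num) |>.1 this
    rw [← h0, ha, hb]
    rcases Nat.eq_zero_or_pos p with hp | hp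
    · rw [hp]
      norm_num
    · rw [add_zero, sub_zero, zero_pow (by omega), zero_pow (by omega)]
      norm_num
  have key : ∀ m : ℕ, m ≤ p →
      (a + b) ^ (2 * m) + (a - b) ^ (2 * m) ≤ 2 * X ^ m ∧
      |(a + b) ^ (2 * m) - (a - b) ^ (2 * m)| * X ≤ 4 * m * |a * b| * X ^ m := by
    intro m
    induction m with
    | zero =>
      intro _
      simp only [mul_zero, pow_zero, sub_self, abs_zero, zero_mul, Nat.cast_zero, le_refl, and_true]
      norm_num
    | succ m ih =>
      intro hm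
      obtain ⟨h1, h2⟩ := ih (by omega)
      have hmc : 4 * (m : ℝ) + 1 ≤ c := by
        have h3 : ((m + 1 : ℕ) : ℝ) ≤ p := by exact_mod_cast hm
        push_cast at h3
        linarith
      set U : ℝ := (a + b) ^ (2 * m) with hU
      set W : ℝ := (a - b) ^ (2 * m) with hW
      have hU0 : 0 ≤ U := by
        rw [hU, pow_mul]
        positivity
      have hW0 : 0 ≤ W := by
        rw [hW, pow_mul]
        positivity
      have hXm : 0 < X ^ m := by positivity
      have e1 : (a + b) ^ (2 * (m + 1)) = (a + b) ^ 2 * U := by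
        rw [hU, ← pow_add]
        congr 1
        ring
      have e2 : (a - b) ^ (2 * (m + 1)) = (a - b) ^ 2 * W := by
        rw [hW, ← pow_add]
        congr 1
        ring
      have e3 : (a + b) ^ 2 * U + (a - b) ^ 2 * W =
          (a ^ 2 + b ^ 2) * (U + W) + 2 * (a * b) * (U - W) := by ring
      have e4 : (a + b) ^ 2 * U - (a - b) ^ 2 * W =
          (a ^ 2 + b ^ 2) * (U - W) + 2 * (a * b) * (U + W) := by ring
      have hab : |a * b| ^ 2 = a ^ 2 * b ^ 2 := by
        rw [sq_abs]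
        ring
      have hs : a ^ 2 + b ^ 2 ≤ X := by
        rw [hX]
        nlinarith [sq_nonneg b]
      rw [e1, e2, e3, e4]
      constructor
      · -- the sum
        have h3 : 2 * (a * b) * (U - W) ≤ 2 * |a * b| * |U - W| := by
          have h4 : (a * b) * (U - W) ≤ |a * b| * |U - W| := by
            rw [← abs_mul]
            exact le_abs_self _
          linarith
        have h5 : 2 * |a * b| * |U - W| * X ≤ 8 * m * b ^ 2 * X ^ m * X := by
          have h6 : 2 * |a * b| * |U - W| * X ≤ 2 * |a * b| * (4 * m * |a * b| * X ^ m) := by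
            calc 2 * |a * b| * |U - W| * X = 2 * |a * b| * (|U - W| * X) := by ring
              _ ≤ _ := mul_le_mul_of_nonneg_left h2 (by positivity)
          have h7 : 2 * |a * b| * (4 * m * |a * b| * X ^ m) = 8 * m * (a ^ 2 * b ^ 2) * X ^ m := by
            rw [← hab]
            ring
          rw [h7] at h6
          refine h6.trans ?_
          have h8 : a ^ 2 * b ^ 2 ≤ X * b ^ 2 := mul_le_mul_of_nonneg_right ha2 (sq_nonneg b)
          calc 8 * m * (a ^ 2 * b ^ 2) * X ^ m ≤ 8 * m * (X * b ^ 2) * X ^ m := by gcongr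
            _ = _ := by ring
        have h9 : 2 * |a * b| * |U - W| ≤ 8 * m * b ^ 2 * X ^ m :=
          le_of_mul_le_mul_right h5 hpos
        have h10 : (a ^ 2 + b ^ 2) * (U + W) ≤ (a ^ 2 + b ^ 2) * (2 * X ^ m) :=
          mul_le_mul_of_nonneg_left h1 (by positivity)
        have h11 : a ^ 2 + (4 * m + 1) * b ^ 2 ≤ X := by
          rw [hX]
          have := mul_le_mul_of_nonneg_right hmc (sq_nonneg b)
          linarith
        calc (a ^ 2 + b ^ 2) * (U + W) + 2 * (a * b) * (U - W)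
            ≤ (a ^ 2 + b ^ 2) * (2 * X ^ m) + 8 * m * b ^ 2 * X ^ m := by linarith
          _ = 2 * ((a ^ 2 + (4 * m + 1) * b ^ 2) * X ^ m) := by ring
          _ ≤ 2 * (X * X ^ m) := by
              have := mul_le_mul_of_nonneg_right h11 hXm.le
              linarith
          _ = 2 * X ^ (m + 1) := by ring
      · -- the difference
        have h3 : |(a ^ 2 + b ^ 2) * (U - W) + 2 * (a * b) * (U + W)| ≤
            (a ^ 2 + b ^ 2) * |U - W| + 2 * |a * b| * (U + W) := by
          refine (abs_add_le _ _).trans ?_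
          rw [abs_mul, abs_mul, abs_mul, abs_of_nonneg (show 0 ≤ a ^ 2 + b ^ 2 by positivity),
            abs_of_nonneg (show 0 ≤ U + W by positivity), abs_two]
        have h4 : (a ^ 2 + b ^ 2) * |U - W| * X ≤ X * (4 * m * |a * b| * X ^ m) := by
          calc (a ^ 2 + b ^ 2) * |U - W| * X = (a ^ 2 + b ^ 2) * (|U - W| * X) := by ring
            _ ≤ X * (4 * m * |a * b| * X ^ m) :=
              mul_le_mul hs h2 (by positivity) hX0
        have h5 : 2 * |a * b| * (U + W) * X ≤ 2 * |a * b| * (2 * X ^ m) * X := by gcongr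
        calc |(a ^ 2 + b ^ 2) * (U - W) + 2 * (a * b) * (U + W)| * X ≤
            ((a ^ 2 + b ^ 2) * |U - W| + 2 * |a * b| * (U + W)) * X :=
              mul_le_mul_of_nonneg_right h3 hX0
          _ = (a ^ 2 + b ^ 2) * |U - W| * X + 2 * |a * b| * (U + W) * X := by ring
          _ ≤ X * (4 * m * |a * b| * X ^ m) + 2 * |a * b| * (2 * X ^ m) * X := add_le_add h4 h5
          _ = 4 * ((m + 1 : ℕ) : ℝ) * |a * b| * X ^ (m + 1) := by
              push_cast
              ring
  exact (key p le_rfl).1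

/-- Minkowski -/
theorem mink {Ω : Type} [Fintype Ω] (u v : Ω → ℝ) (hu : ∀ x, 0 ≤ u x) (hv : ∀ x, 0 ≤ v x)
    (p : ℕ) (hp : 1 ≤ p) (N α β : ℝ) (hN : 0 ≤ N) (hα : 0 ≤ α) (hβ : 0 ≤ β)
    (h1 : ∑ x, u x ^ p ≤ N * α ^ p) (h2 : ∑ x, v x ^ p ≤ N * β ^ p) :
    ∑ x, (u x + v x) ^ p ≤ N * (α + β) ^ p := by
  have hp1 : (1 : ℝ) ≤ p := by exact_mod_cast hp
  have hp0 : (p : ℝ) ≠ 0 := by positivity
  have h3 := Real.Lp_add_le_of_nonneg (s := Finset.univ) (f := u) (g := v) (p := (p : ℝ)) hp1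
    (fun i _ => hu i) (fun i _ => hv i)
  simp only [Real.rpow_natCast] at h3
  have key : ∀ γ : ℝ, 0 ≤ γ → (N * γ ^ p) ^ (1 / (p : ℝ)) = N ^ (1 / (p : ℝ)) * γ := by
    intro γ hγ
    rw [Real.mul_rpow hN (by positivity), ← Real.rpow_natCast γ p, ← Real.rpow_mul hγ,
      mul_one_div_cancel hp0, Real.rpow_one]
  have hu' : 0 ≤ ∑ x, u x ^ p := sum_nonneg (fun x _ => pow_nonneg (hu x) p)
  have hv' : 0 ≤ ∑ x, v x ^ p := sum_nonneg (fun x _ => pow_nonneg (hv x) p)
  have h4 : (∑ x, u x ^ p) ^ (1 / (p : ℝ)) ≤ N ^ (1 / (p : ℝ)) * α := by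
    rw [← key α hα]
    exact Real.rpow_le_rpow hu' h1 (by positivity)
  have h5 : (∑ x, v x ^ p) ^ (1 / (p : ℝ)) ≤ N ^ (1 / (p : ℝ)) * β := by
    rw [← key β hβ]
    exact Real.rpow_le_rpow hv' h2 (by positivity)
  have h6 : (∑ x, (u x + v x) ^ p) ^ (1 / (p : ℝ)) ≤ (N * (α + β) ^ p) ^ (1 / (p : ℝ)) := by
    rw [key (α + β) (by positivity)]
    linarith
  have h7 : 0 ≤ ∑ x, (u x + v x) ^ p :=
    sum_nonneg (fun x _ => pow_nonneg (add_nonneg (hu x) (hv x)) p)
  exact (Real.rpow_le_rpow_iff h7 (by positivity) (by positivity)).1 h6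

theorem sum_cons {n : ℕ} (F : Cfg (n + 1) → ℝ) :
    ∑ x, F x = ∑ x : Cfg n, (F (Fin.cons true x) + F (Fin.cons false x)) := by
  rw [← (Fin.consEquiv (fun _ => Bool)).sum_comp F, Fintype.sum_prod_type_right]
  refine sum_congr rfl (fun x _ => ?_)
  rw [Fintype.sum_bool]
  rfl

/-- one more sign -/
theorem step {n : ℕ} (g h : Cfg n → ℝ) (F : Cfg (n + 1) → ℝ)
    (hF : ∀ s x, F (Fin.cons s x) = g x + sp s * h x) (p : ℕ) (hp : 1 ≤ p) (α β : ℝ)
    (hα : 0 ≤ α) (hβ : 0 ≤ β) (h1 : ∑ x, g x ^ (2 * p) ≤ 2 ^ n * α ^ p)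
    (h2 : ∑ x, (4 * p * h x ^ 2) ^ p ≤ 2 ^ n * β ^ p) :
    ∑ x, F x ^ (2 * p) ≤ 2 ^ (n + 1) * (α + β) ^ p := by
  have hp1 : (1 : ℝ) ≤ p := by exact_mod_cast hp
  rw [sum_cons (fun x => F x ^ (2 * p))]
  have h3 : ∀ x : Cfg n, F (Fin.cons true x) ^ (2 * p) + F (Fin.cons false x) ^ (2 * p) ≤
      2 * (g x ^ 2 + 4 * p * h x ^ 2) ^ p := by
    intro x
    rw [hF, hF]
    have h4 := two_point (g x) (h x) (4 * p) p le_rfl (by linarith)
    have e1 : g x + sp true * h x = g x + h x := by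
      unfold sp
      simp
    have e2 : g x + sp false * h x = g x - h x := by
      unfold sp
      simp
      ring
    rw [e1, e2]
    exact h4
  have h4 := mink (fun x => g x ^ 2) (fun x => 4 * p * h x ^ 2) (fun x => sq_nonneg _)
    (fun x => by positivity) p hp (2 ^ n) α β (by positivity) hα hβ
    (by
      refine le_trans (le_of_eq ?_) h1
      refine sum_congr rfl (fun x _ => ?_)
      rw [← pow_mul]) h2
  calc ∑ x : Cfg n, (F (Fin.cons true x) ^ (2 * p) + F (Fin.cons false x) ^ (2 * p)) ≤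
      ∑ x : Cfg n, 2 * (g x ^ 2 + 4 * p * h x ^ 2) ^ p := sum_le_sum (fun x _ => h3 x)
    _ = 2 * ∑ x : Cfg n, (g x ^ 2 + 4 * p * h x ^ 2) ^ p := by rw [mul_sum]
    _ ≤ 2 * (2 ^ n * (α + β) ^ p) := mul_le_mul_of_nonneg_left h4 (by norm_num)
    _ = _ := by ring

/-- Khintchine -/
theorem lin (p : ℕ) (hp : 1 ≤ p) : ∀ (n : ℕ) (b : Fin n → ℝ),
    ∑ x : Cfg n, (∑ i, b i * sp (x i)) ^ (2 * p) ≤ 2 ^ n * (4 * p * ∑ i, b i ^ 2) ^ p := by
  intro n
  induction n with
  | zero =>
    intro b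
    simp only [univ_eq_empty, sum_empty, mul_zero]
    rw [zero_pow (by omega), zero_pow (by omega), sum_const_zero, mul_zero]
  | succ n ih =>
    intro b
    have h1 := step (fun x : Cfg n => ∑ i, b (Fin.succ i) * sp (x i)) (fun _ => b 0)
      (fun x : Cfg (n + 1) => ∑ i, b i * sp (x i)) (by
        intro s x
        rw [Fin.sum_univ_succ]
        simp only [Fin.cons_zero, Fin.cons_succ]
        ring) p hp (4 * p * ∑ i : Fin n, b (Fin.succ i) ^ 2) (4 * p * b 0 ^ 2)
      (by positivity) (by positivity) (ih _) (by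
        rw [sum_const, nsmul_eq_mul, card_univ, Fintype.card_fun, Fintype.card_bool,
          Fintype.card_fin]
        push_cast
        exact le_rfl)
    refine h1.trans (le_of_eq ?_)
    rw [Fin.sum_univ_succ]
    ring

/-- real quadratic forms in signs -/
theorem quad (p : ℕ) (hp : 1 ≤ p) : ∀ (n : ℕ) (A : Fin n → Fin n → ℝ),
    ∑ x : Cfg n, (∑ i, ∑ j, (if i < j then A i j * sp (x i) * sp (x j) else 0)) ^ (2 * p) ≤
      2 ^ n * ((4 * p) ^ 2 * ∑ i, ∑ j, (if i < j then A i j ^ 2 else 0)) ^ p := by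
  intro n
  induction n with
  | zero =>
    intro A
    simp only [univ_eq_empty, sum_empty, mul_zero]
    rw [zero_pow (by omega), zero_pow (by omega), sum_const_zero, mul_zero]
  | succ n ih =>
    intro A
    have hsq : ∀ i j : Fin n, 0 ≤ (if i < j then A (Fin.succ i) (Fin.succ j) ^ 2 else (0 : ℝ)) := by
      intro i j
      split_ifs
      · positivity
      · exact le_rfl
    have h1 := step
      (fun x : Cfg n => ∑ i : Fin n, ∑ j : Fin n,
        (if i < j then A (Fin.succ i) (Fin.succ j) * sp (x i) * sp (x j) else 0))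
      (fun x : Cfg n => ∑ j : Fin n, A 0 (Fin.succ j) * sp (x j))
      (fun x : Cfg (n + 1) => ∑ i, ∑ j, (if i < j then A i j * sp (x i) * sp (x j) else 0)) (by
        intro s x
        rw [Fin.sum_univ_succ, Fin.sum_univ_succ]
        simp only [Fin.cons_zero, Fin.cons_succ, lt_self_iff_false, if_false, Fin.succ_pos,
          if_true, zero_add]
        have h2 : ∀ i : Fin n, ∑ j : Fin (n + 1), (if Fin.succ i < j then
            A (Fin.succ i) j * sp (x i) * sp ((Fin.cons s x : Cfg (n + 1)) j) else 0) =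
            ∑ j : Fin n, (if i < j then A (Fin.succ i) (Fin.succ j) * sp (x i) * sp (x j) else 0) := by
          intro i
          rw [Fin.sum_univ_succ]
          simp only [Fin.not_lt_zero, if_false, zero_add, Fin.succ_lt_succ_iff, Fin.cons_succ]
        rw [sum_congr rfl (fun i _ => h2 i), add_comm, mul_sum]
        congr 1
        refine sum_congr rfl (fun j _ => ?_)
        ring) p hp
      ((4 * p) ^ 2 * ∑ i : Fin n, ∑ j : Fin n,
        (if i < j then A (Fin.succ i) (Fin.succ j) ^ 2 else 0))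
      ((4 * p) ^ 2 * ∑ j : Fin n, A 0 (Fin.succ j) ^ 2)
      (mul_nonneg (by positivity) (sum_nonneg (fun i _ => sum_nonneg (fun j _ => hsq i j))))
      (by positivity) (ih (fun i j => A (Fin.succ i) (Fin.succ j))) (by
        have h3 := lin p hp n (fun j => A 0 (Fin.succ j))
        calc ∑ x : Cfg n, (4 * p * (∑ j : Fin n, A 0 (Fin.succ j) * sp (x j)) ^ 2) ^ p =
            (4 * p) ^ p * ∑ x : Cfg n, (∑ j : Fin n, A 0 (Fin.succ j) * sp (x j)) ^ (2 * p) := by
              rw [mul_sum]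
              refine sum_congr rfl (fun x _ => ?_)
              rw [mul_pow, ← pow_mul]
          _ ≤ (4 * p) ^ p * (2 ^ n * (4 * p * ∑ j : Fin n, A 0 (Fin.succ j) ^ 2) ^ p) :=
              mul_le_mul_of_nonneg_left h3 (by positivity)
          _ = _ := by
              rw [mul_left_comm, ← mul_pow]
              congr 2
              ring)
    refine h1.trans (le_of_eq ?_)
    congr 2
    rw [← mul_add]
    congr 1
    rw [Fin.sum_univ_succ, Fin.sum_univ_succ]
    simp only [lt_self_iff_false, if_false, Fin.succ_pos, if_true, zero_add]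
    rw [add_comm]
    congr 1
    refine sum_congr rfl (fun i _ => ?_)
    rw [Fin.sum_univ_succ]
    simp only [Fin.not_lt_zero, if_false, zero_add, Fin.succ_lt_succ_iff]

/-- from `i ≠ j` to `i < j` -/
theorem off_diag {M : Type} [AddCommMonoid M] {n : ℕ} (B : Fin n → Fin n → M) :
    ∑ i, ∑ j, (if i = j then 0 else B i j) =
      ∑ i, ∑ j, (if i < j then B i j + B j i else 0) := by
  have h1 : ∀ i j : Fin n, (if i = j then 0 else B i j) =
      (if i < j then B i j else 0) + (if j < i then B i j else 0) := by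
    intro i j
    rcases lt_trichotomy i j with h | h | h
    · rw [if_neg h.ne, if_pos h, if_neg h.not_gt, add_zero]
    · rw [if_pos h, h, if_neg (lt_irrefl j), add_zero]
    · rw [if_neg h.ne', if_neg h.not_gt, if_pos h, zero_add]
  have h2 : ∑ i : Fin n, ∑ j : Fin n, (if j < i then B i j else 0) =
      ∑ i : Fin n, ∑ j : Fin n, (if i < j then B j i else 0) := sum_comm
  calc ∑ i, ∑ j, (if i = j then 0 else B i j) =
      ∑ i, ∑ j, ((if i < j then B i j else 0) + (if j < i then B i j else 0)) :=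
        sum_congr rfl (fun i _ => sum_congr rfl (fun j _ => h1 i j))
    _ = ∑ i, ∑ j, (if i < j then B i j else 0) + ∑ i, ∑ j, (if j < i then B i j else 0) := by
        rw [← sum_add_distrib]
        exact sum_congr rfl (fun i _ => sum_add_distrib)
    _ = ∑ i, ∑ j, (if i < j then B i j else 0) + ∑ i, ∑ j, (if i < j then B j i else 0) := by
        rw [h2]
    _ = _ := by
        rw [← sum_add_distrib]
        refine sum_congr rfl (fun i _ => ?_)
        rw [← sum_add_distrib]
        refine sum_congr rfl (fun j _ => ?_)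
        split_ifs
        · rfl
        · rw [add_zero]

/-- the real chaos -/
theorem real_chaos (p : ℕ) (hp : 1 ≤ p) {n : ℕ} (A : Fin n → Fin n → ℝ) :
    ∑ x : Cfg n, (∑ i, ∑ j, (if i = j then 0 else A i j * sp (x i) * sp (x j))) ^ (2 * p) ≤
      2 ^ n * (2 * (4 * p) ^ 2 * ∑ i, ∑ j, A i j ^ 2) ^ p := by
  have h1 := quad p hp n (fun i j => A i j + A j i)
  have h2 : ∀ x : Cfg n, ∑ i, ∑ j, (if i = j then 0 else A i j * sp (x i) * sp (x j)) =
      ∑ i, ∑ j, (if i < j then (A i j + A j i) * sp (x i) * sp (x j) else 0) := by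
    intro x
    rw [off_diag (fun i j => A i j * sp (x i) * sp (x j))]
    refine sum_congr rfl (fun i _ => sum_congr rfl (fun j _ => ?_))
    split_ifs
    · ring
    · rfl
  have h3 : ∑ i, ∑ j, (if i < j then (A i j + A j i) ^ 2 else 0) ≤
      2 * ∑ i, ∑ j, A i j ^ 2 := by
    have h4 : ∑ i, ∑ j, (if i = j then 0 else A i j ^ 2) ≤ ∑ i, ∑ j, A i j ^ 2 := by
      refine sum_le_sum (fun i _ => sum_le_sum (fun j _ => ?_))
      split_ifs
      · positivity
      · exact le_rfl
    rw [off_diag (fun i j => A i j ^ 2)] at h4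
    refine le_trans ?_ (mul_le_mul_of_nonneg_left h4 (by norm_num))
    rw [mul_sum]
    refine sum_le_sum (fun i _ => ?_)
    rw [mul_sum]
    refine sum_le_sum (fun j _ => ?_)
    split_ifs
    · nlinarith [sq_nonneg (A i j - A j i)]
    · simp
  rw [sum_congr rfl (fun x _ => by rw [h2 x])]
  refine h1.trans ?_
  refine mul_le_mul_of_nonneg_left ?_ (by positivity)
  refine pow_le_pow_left₀ ?_ ?_ p
  · refine mul_nonneg (by positivity) (sum_nonneg (fun i _ => sum_nonneg (fun j _ => ?_)))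
    split_ifs
    · positivity
    · exact le_rfl
  · calc (4 * (p : ℝ)) ^ 2 * ∑ i, ∑ j, (if i < j then (A i j + A j i) ^ 2 else 0) ≤
        (4 * (p : ℝ)) ^ 2 * (2 * ∑ i, ∑ j, A i j ^ 2) :=
          mul_le_mul_of_nonneg_left h3 (by positivity)
      _ = _ := by ring

theorem add_pow_le' {a b : ℝ} (ha : 0 ≤ a) (hb : 0 ≤ b) (p : ℕ) :
    (a + b) ^ p ≤ 2 ^ p * (a ^ p + b ^ p) := by
  rcases le_total a b with h | h
  · calc (a + b) ^ p ≤ (2 * b) ^ p := pow_le_pow_left₀ (by positivity) (by linarith) p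
      _ = 2 ^ p * b ^ p := mul_pow _ _ _
      _ ≤ _ := by
        refine mul_le_mul_of_nonneg_left ?_ (by positivity)
        have : 0 ≤ a ^ p := by positivity
        linarith
  · calc (a + b) ^ p ≤ (2 * a) ^ p := pow_le_pow_left₀ (by positivity) (by linarith) p
      _ = 2 ^ p * a ^ p := mul_pow _ _ _
      _ ≤ _ := by
        refine mul_le_mul_of_nonneg_left ?_ (by positivity)
        have : 0 ≤ b ^ p := by positivity
        linarith

/-- C2: moments of a Rademacher chaos of degree two -/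
theorem chaos_pow {n : ℕ} (A : Fin n → Fin n → ℂ) (p : ℕ) (hp : 1 ≤ p) :
    ∑ x : Cfg n, ‖∑ i, ∑ j, (if i = j then 0 else
      A i j * (sp (x i) : ℂ) * (sp (x j) : ℂ))‖ ^ (2 * p) ≤
      2 ^ n * ((16 * p) ^ (2 * p) * (∑ i, ∑ j, ‖A i j‖ ^ 2) ^ p) := by
  set R : Cfg n → ℝ := fun x =>
    ∑ i, ∑ j, (if i = j then 0 else (A i j).re * sp (x i) * sp (x j)) with hR
  set I : Cfg n → ℝ := fun x =>
    ∑ i, ∑ j, (if i = j then 0 else (A i j).im * sp (x i) * sp (x j)) with hI
  have h1 : ∀ x : Cfg n, ‖∑ i, ∑ j, (if i = j then 0 else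
      A i j * (sp (x i) : ℂ) * (sp (x j) : ℂ))‖ ^ (2 * p) = (R x ^ 2 + I x ^ 2) ^ p := by
    intro x
    rw [pow_mul, ← Complex.normSq_eq_norm_sq, Complex.normSq_apply]
    have hre : (∑ i, ∑ j, (if i = j then 0 else
      A i j * (sp (x i) : ℂ) * (sp (x j) : ℂ))).re = R x := by
      rw [Complex.re_sum, hR]
      refine sum_congr rfl (fun i _ => ?_)
      rw [Complex.re_sum]
      refine sum_congr rfl (fun j _ => ?_)
      split_ifs
      · simp
      · rw [Complex.re_mul_ofReal, Complex.re_mul_ofReal]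
    have him : (∑ i, ∑ j, (if i = j then 0 else
      A i j * (sp (x i) : ℂ) * (sp (x j) : ℂ))).im = I x := by
      rw [Complex.im_sum, hI]
      refine sum_congr rfl (fun i _ => ?_)
      rw [Complex.im_sum]
      refine sum_congr rfl (fun j _ => ?_)
      split_ifs
      · simp
      · rw [Complex.im_mul_ofReal, Complex.im_mul_ofReal]
    rw [hre, him]
    congr 1
    ring
  set S : ℝ := ∑ i, ∑ j, ‖A i j‖ ^ 2 with hS
  have hS0 : 0 ≤ S := sum_nonneg (fun i _ => sum_nonneg (fun j _ => sq_nonneg _))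
  have hSr : ∑ i, ∑ j, (A i j).re ^ 2 ≤ S := by
    rw [hS]
    refine sum_le_sum (fun i _ => sum_le_sum (fun j _ => ?_))
    rw [← Complex.normSq_eq_norm_sq, Complex.normSq_apply]
    nlinarith [sq_nonneg (A i j).im]
  have hSi : ∑ i, ∑ j, (A i j).im ^ 2 ≤ S := by
    rw [hS]
    refine sum_le_sum (fun i _ => sum_le_sum (fun j _ => ?_))
    rw [← Complex.normSq_eq_norm_sq, Complex.normSq_apply]
    nlinarith [sq_nonneg (A i j).re]
  have hbound : ∀ T : ℝ, 0 ≤ T → T ≤ S →
      (2 * (4 * (p : ℝ)) ^ 2 * T) ^ p ≤ (2 * (4 * (p : ℝ)) ^ 2 * S) ^ p := by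
    intro T hT hTS
    exact pow_le_pow_left₀ (by positivity) (mul_le_mul_of_nonneg_left hTS (by positivity)) p
  have h2 := (real_chaos p hp (fun i j => (A i j).re)).trans
    (mul_le_mul_of_nonneg_left (hbound _
      (sum_nonneg (fun i _ => sum_nonneg (fun j _ => sq_nonneg _))) hSr) (by positivity))
  have h3 := (real_chaos p hp (fun i j => (A i j).im)).trans
    (mul_le_mul_of_nonneg_left (hbound _
      (sum_nonneg (fun i _ => sum_nonneg (fun j _ => sq_nonneg _))) hSi) (by positivity))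
  rw [sum_congr rfl (fun x _ => h1 x)]
  have h4 : ∀ x : Cfg n, (R x ^ 2 + I x ^ 2) ^ p ≤ 2 ^ p * (R x ^ (2 * p) + I x ^ (2 * p)) := by
    intro x
    rw [pow_mul, pow_mul]
    exact add_pow_le' (sq_nonneg _) (sq_nonneg _) p
  calc ∑ x : Cfg n, (R x ^ 2 + I x ^ 2) ^ p ≤
      ∑ x : Cfg n, 2 ^ p * (R x ^ (2 * p) + I x ^ (2 * p)) := sum_le_sum (fun x _ => h4 x)
    _ = 2 ^ p * (∑ x : Cfg n, R x ^ (2 * p) + ∑ x : Cfg n, I x ^ (2 * p)) := by
        rw [← mul_sum, sum_add_distrib]
    _ ≤ 2 ^ p * (2 ^ n * (2 * (4 * p) ^ 2 * S) ^ p + 2 ^ n * (2 * (4 * p) ^ 2 * S) ^ p) :=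
        mul_le_mul_of_nonneg_left (add_le_add h2 h3) (by positivity)
    _ = 2 ^ n * (2 * ((64 * p ^ 2) ^ p * S ^ p)) := by
        rw [← mul_pow]
        have e1 : (2 : ℝ) ^ p * (2 ^ n * (2 * (4 * p) ^ 2 * S) ^ p +
            2 ^ n * (2 * (4 * p) ^ 2 * S) ^ p) =
            2 ^ n * (2 * (2 ^ p * (2 * (4 * p) ^ 2 * S) ^ p)) := by ring
        rw [e1, ← mul_pow]
        congr 3
        ring
    _ ≤ _ := by
        refine mul_le_mul_of_nonneg_left ?_ (by positivity)
        have e2 : (16 * (p : ℝ)) ^ (2 * p) = 4 ^ p * (64 * (p : ℝ) ^ 2) ^ p := by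
          rw [pow_mul, ← mul_pow]
          congr 1
          ring
        have e3 : (2 : ℝ) ≤ 4 ^ p := by
          calc (2 : ℝ) ≤ 4 ^ 1 := by norm_num
            _ ≤ 4 ^ p := pow_le_pow_right₀ (by norm_num) hp
        have e4 : 0 ≤ (64 * (p : ℝ) ^ 2) ^ p * S ^ p := by positivity
        rw [e2]
        calc 2 * ((64 * (p : ℝ) ^ 2) ^ p * S ^ p) ≤ 4 ^ p * ((64 * (p : ℝ) ^ 2) ^ p * S ^ p) :=
              mul_le_mul_of_nonneg_right e3 e4
          _ = _ := by ring

end Vale.Agent.P150.H954C
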